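import Vale.Agent.P372.Meas.Error

/-! States close to the identity split along every orthonormal basis. -/

open Matrix
open scoped Kronecker ComplexOrder MatrixOrder

namespace Vale.Agent.P372.Meas

variable {A B : Type*} [Fintype A] [DecidableEq A] [Fintype B] [DecidableEq B]

omit [Fintype A] [DecidableEq A] in
lemma single_psd (y : B) : (Matrix.single y y (1 : ℂ)).PosSemidef := by
  have := posSemidef_conjTranspose_mul_self (Matrix.single y y (1 : ℂ))
  simpa using this

omit [Fintype A] [DecidableEq A] [DecidableEq B] in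
lemma condA_kron (N : Matrix B B ℂ) (X : Matrix A A ℂ) (Y : Matrix B B ℂ) :
    condA N (X ⊗ₖ Y) = (N * Y).trace • X := by
  ext a a'
  simp only [condA, of_apply, kroneckerMap_apply, Matrix.smul_apply, smul_eq_mul, trace,
    diag_apply, mul_apply, Finset.sum_mul]
  exact Finset.sum_congr rfl fun b _ => Finset.sum_congr rfl fun b' _ => by ring

omit [Fintype A] [DecidableEq A] [DecidableEq B] in
lemma condA_sub (N : Matrix B B ℂ) (σ τ : Matrix (A × B) (A × B) ℂ) :
    condA N (σ - τ) = condA N σ - condA N τ := by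
  ext a a'
  simp [condA, mul_sub, Finset.sum_sub_distrib]

omit [Fintype A] [DecidableEq A] [DecidableEq B] in
lemma condA_sum' {K : Type*} (s : Finset K) (N : Matrix B B ℂ)
    (σ : K → Matrix (A × B) (A × B) ℂ) :
    condA N (∑ k ∈ s, σ k) = ∑ k ∈ s, condA N (σ k) := by
  ext a a'
  simp only [condA, of_apply, Matrix.sum_apply, Finset.mul_sum]
  rw [Finset.sum_comm (γ := K)]
  exact Finset.sum_congr rfl fun b _ => Finset.sum_comm

omit [Fintype A] [DecidableEq A] in
lemma condA_single (z : B) (σ : Matrix (A × B) (A × B) ℂ) :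
    condA (Matrix.single z z 1) σ = σ.submatrix (fun a => (a, z)) (fun a => (a, z)) := by
  ext a a'
  simp [condA, Matrix.single_apply, ite_and]

omit [Fintype A] [DecidableEq A] [DecidableEq B] in
/-- A finite index type may replace `Fin J`. -/
lemma splits_of {I W : Type*} [Fintype W] {ρ : Matrix (A × B) (A × B) ℂ}
    {F : I → Matrix B B ℂ} (σ : W → Matrix (A × B) (A × B) ℂ) (α : W → Matrix A A ℂ)
    (c : W → I → ℝ) (hσ : ∀ w, (σ w).PosSemidef) (hs : ∑ w, σ w = ρ)
    (hα : ∀ w, (α w).PosSemidef) (hc : ∀ w y, 0 ≤ c w y)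
    (h : ∀ w y, condA (F y) (σ w) = (c w y : ℂ) • α w) : Splits ρ F :=
  ⟨Fintype.card W, σ ∘ (Fintype.equivFin W).symm, α ∘ (Fintype.equivFin W).symm,
    c ∘ (Fintype.equivFin W).symm, fun _ => hσ _,
    (Equiv.sum_comp (Fintype.equivFin W).symm σ).trans hs, fun _ => hα _, fun _ _ => hc _ _,
    fun _ _ => h _ _⟩

lemma splits_diag (ρ : Matrix (A × B) (A × B) ℂ) (lam mu : ℝ)
    (hlo : (ρ - (lam : ℂ) • 1).PosSemidef) (hhi : ((mu : ℂ) • 1 - ρ).PosSemidef)
    (h2 : mu ≤ 2 * lam) (hlm : lam ≤ mu) : Splits ρ fun y : B => Matrix.single y y (1 : ℂ) := by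
  let R : B → Matrix A A ℂ := fun y => ρ.submatrix (fun a => (a, y)) (fun a => (a, y))
  let t : ℝ := mu - lam
  let X : B → Matrix A A ℂ := fun y => R y - (t : ℂ) • 1
  have hinj : ∀ y : B, Function.Injective fun a : A => (a, y) := fun y a a' h => by simpa using h
  have hX : ∀ y, (X y).PosSemidef := fun y => by
    have h1 := hlo.submatrix (fun a : A => (a, y))
    simp only [submatrix_sub, submatrix_smul, Pi.sub_apply, Pi.smul_apply,
      submatrix_one _ (hinj y)] at h1
    have e : X y = (R y - (lam : ℂ) • 1) + ((2 * lam - mu : ℝ) : ℂ) • (1 : Matrix A A ℂ) := by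
      simp only [X, t]
      push_cast
      rw [sub_smul, sub_smul, mul_smul, two_smul]
      abel
    rw [e]
    exact h1.add (PosSemidef.one.smul (Complex.zero_le_real.mpr (by linarith)))
  let rest : Matrix (A × B) (A × B) ℂ := ρ - ∑ y, X y ⊗ₖ Matrix.single y y 1
  have hsum1 : ∑ y : B, (1 : Matrix A A ℂ) ⊗ₖ Matrix.single y y (1 : ℂ) = 1 := by
    rw [← kron_sum_right, Matrix.sum_single_one]
    exact one_kronecker_one
  have hrest : rest.PosSemidef := by
    have e : rest = (ρ - (lam : ℂ) • 1) + ∑ y, ((mu : ℂ) • 1 - R y) ⊗ₖ Matrix.single y y 1 := by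
      have l1 : ∀ y, ((mu : ℂ) • (1 : Matrix A A ℂ) - R y) ⊗ₖ Matrix.single y y (1 : ℂ) =
          (lam : ℂ) • ((1 : Matrix A A ℂ) ⊗ₖ Matrix.single y y (1 : ℂ)) -
            X y ⊗ₖ Matrix.single y y 1 := fun y => by
        ext p q
        simp [X, t]
        ring
      simp only [rest, l1, Finset.sum_sub_distrib, ← Finset.smul_sum, hsum1]
      abel
    rw [e]
    refine hlo.add (posSemidef_sum _ fun y _ => PosSemidef.kronecker ?_ (single_psd y))
    have h1 := hhi.submatrix (fun a : A => (a, y))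
    simpa only [submatrix_sub, submatrix_smul, Pi.sub_apply, Pi.smul_apply,
      submatrix_one _ (hinj y)] using h1
  refine splits_of (W := Option B) (fun w => w.elim rest fun y => X y ⊗ₖ Matrix.single y y 1)
    (fun w => w.elim ((t : ℂ) • 1) X) (fun w z => w.elim 1 fun y => if z = y then 1 else 0)
    ?_ ?_ ?_ ?_ ?_
  · rintro (_ | y)
    exacts [hrest, (hX y).kronecker (single_psd y)]
  · rw [Fintype.sum_option]
    simp [rest]
  · rintro (_ | y)
    exacts [PosSemidef.one.smul (Complex.zero_le_real.mpr (sub_nonneg.2 hlm)), hX y]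
  · rintro (_ | y) z
    · exact zero_le_one
    · show (0 : ℝ) ≤ if z = y then 1 else 0
      split_ifs <;> norm_num
  · have hk : ∀ y z : B,
        ((Matrix.single z z (1 : ℂ)) * Matrix.single y y (1 : ℂ)).trace =
          if z = y then (1 : ℂ) else 0 := fun y z => by
      by_cases h : z = y
      · subst h; simp [Matrix.trace_single_eq_same]
      · simp [h]
    rintro (_ | y) z
    · show condA _ rest = ((1 : ℝ) : ℂ) • (t : ℂ) • (1 : Matrix A A ℂ)
      simp [rest, condA_sub, condA_sum', condA_kron, hk, condA_single, X, R]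
    · show condA _ (X y ⊗ₖ Matrix.single y y 1) = (((if z = y then 1 else 0 : ℝ)) : ℂ) • X y
      rw [condA_kron, hk]
      split_ifs <;> simp

lemma condA_rotate (U N : Matrix B B ℂ) (hU : Uᴴ * U = 1) (σ : Matrix (A × B) (A × B) ℂ) :
    condA (U * N * Uᴴ) (((1 : Matrix A A ℂ) ⊗ₖ U) * σ * ((1 : Matrix A A ℂ) ⊗ₖ U)ᴴ) =
      condA N σ := by
  ext a a'
  have key : ∀ (N : Matrix B B ℂ) (σ : Matrix (A × B) (A × B) ℂ),
      condA N σ a a' = ((Matrix.single a' a (1 : ℂ) ⊗ₖ N) * σ).trace := fun N σ => by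
    rw [trace_condA, Matrix.trace_single_mul]
    simp
  rw [key, key]
  set K : Matrix (A × B) (A × B) ℂ := (1 : Matrix A A ℂ) ⊗ₖ U
  rw [← Matrix.mul_assoc, trace_mul_comm, ← Matrix.mul_assoc, ← Matrix.mul_assoc]
  congr 2
  simp only [K, conjTranspose_kronecker, conjTranspose_one, ← mul_kronecker_mul, Matrix.one_mul,
    Matrix.mul_one]
  rw [show Uᴴ * (U * N * Uᴴ) * U = (Uᴴ * U) * N * (Uᴴ * U) by simp only [Matrix.mul_assoc], hU,
    Matrix.one_mul, Matrix.mul_one]

theorem splits_basis (ρ : Matrix (A × B) (A × B) ℂ) (lam mu : ℝ)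
    (hlo : (ρ - (lam : ℂ) • 1).PosSemidef) (hhi : ((mu : ℂ) • 1 - ρ).PosSemidef)
    (h2 : mu ≤ 2 * lam) (hlm : lam ≤ mu) (U : Matrix B B ℂ) (hU : U * Uᴴ = 1)
    (hU' : Uᴴ * U = 1) : Splits ρ fun y : B => U * Matrix.single y y (1 : ℂ) * Uᴴ := by
  obtain ⟨K, hK⟩ : ∃ K : Matrix (A × B) (A × B) ℂ, K = (1 : Matrix A A ℂ) ⊗ₖ U := ⟨_, rfl⟩
  have k1 : K * Kᴴ = 1 := by
    rw [hK, conjTranspose_kronecker, ← mul_kronecker_mul, conjTranspose_one, Matrix.one_mul, hU,
      one_kronecker_one]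
  have k2 : Kᴴ * K = 1 := by
    rw [hK, conjTranspose_kronecker, ← mul_kronecker_mul, conjTranspose_one, Matrix.one_mul, hU',
      one_kronecker_one]
  have h1 : (Kᴴ * ρ * K - (lam : ℂ) • 1).PosSemidef := by
    have := hlo.conjTranspose_mul_mul_same K
    simpa [Matrix.mul_sub, Matrix.sub_mul, k2] using this
  have h3 : ((mu : ℂ) • 1 - Kᴴ * ρ * K).PosSemidef := by
    have := hhi.conjTranspose_mul_mul_same K
    simpa [Matrix.mul_sub, Matrix.sub_mul, k2] using this
  obtain ⟨J, σ, α, c, hσ, hs, hα, hc, h⟩ := splits_diag (Kᴴ * ρ * K) lam mu h1 h3 h2 hlm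
  refine ⟨J, fun w => K * σ w * Kᴴ, α, c, fun w => (hσ w).mul_mul_conjTranspose_same K, ?_, hα,
    hc, fun w y => ?_⟩
  · rw [← Matrix.sum_mul, ← Matrix.mul_sum, hs]
    calc K * (Kᴴ * ρ * K) * Kᴴ = (K * Kᴴ) * ρ * (K * Kᴴ) := by simp only [Matrix.mul_assoc]
      _ = ρ := by rw [k1, Matrix.one_mul, Matrix.mul_one]
  · rw [hK, condA_rotate U _ hU']
    exact h w y

end Vale.Agent.P372.Meas
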