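import Vale.Agent.P372.Defs

/-! Protocols in which one party measures copy by copy, its later processing being classical. -/

open Matrix
open scoped Kronecker ComplexOrder MatrixOrder

namespace Vale.Agent.P372

/-- The measurements in orthonormal bases: rank-one projections on the columns of a unitary. -/
def basisMeas (d : ℕ) : Set (Fin d → Matrix (Fin d) (Fin d) ℂ) :=
  {F | ∃ U : Matrix (Fin d) (Fin d) ℂ, U * Uᴴ = 1 ∧ Uᴴ * U = 1 ∧
    ∀ y, F y = U * Matrix.single y y 1 * Uᴴ}

/-- The measurements with `r` outcomes. -/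
def povms (d r : ℕ) : Set (Fin r → Matrix (Fin d) (Fin d) ℂ) :=
  {F | (∀ y, (F y).PosSemidef) ∧ ∑ y, F y = 1}

/-- The state of both keys, the transcript `t` and Eve's purifying system, when the effects of
Alice and Bob for `t` and their keys are `M t` and `N t`. -/
def measState {X A B T Key E : Type*} [Fintype A] [Fintype B] [Fintype X] [DecidableEq T]
    [DecidableEq Key] (V : Matrix X E ℂ) (K : Matrix (A × B) X ℂ)
    (M : T → Key → Matrix A A ℂ) (N : T → Key → Matrix B B ℂ) :
    Matrix ((Key × Key) × (T × E)) ((Key × Key) × (T × E)) ℂ :=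
  blkD fun k => blkD fun t => ((K * V)ᴴ * (M t k.1 ⊗ₖ N t k.2) * (K * V))ᵀ

/-- `KeyFreeMeas 𝓕 c ρ`: on any number `m` of copies every protocol of the following kind has
error at least `c`. It is two-way with unlimited public transcript `t`; Alice's operations are
arbitrary and collective (`M t a` is her effect for `t` and key `a`); Bob measures copy `i` by a
member `F t i` of `𝓕`, which may depend on the transcript, and everything else he does (messages,
private randomness, key) is any classical processing of all outcomes `y`, with weights `h t b y`.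
Eve holds an arbitrary purification and `t`. -/
def KeyFreeMeas {d r : ℕ} (𝓕 : Set (Fin r → Matrix (Fin d) (Fin d) ℂ)) (c : ℝ)
    (ρ : Matrix (Fin d × Fin d) (Fin d × Fin d) ℂ) : Prop :=
  ∀ (m e T L : ℕ)
    (V : Matrix ((Fin m → Fin d) × (Fin m → Fin d)) (Fin e) ℂ)
    (F : Fin T → Fin m → Fin r → Matrix (Fin d) (Fin d) ℂ)
    (M : Fin T → (Fin L → Bool) → Matrix (Fin m → Fin d) (Fin m → Fin d) ℂ)
    (h : Fin T → (Fin L → Bool) → (Fin m → Fin r) → ℝ)
    (σ : Matrix (Fin T × Fin e) (Fin T × Fin e) ℂ),
    1 ≤ L →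
    V * Vᴴ = piP (fun _ : Fin m => ρ) →
    (∀ t i, F t i ∈ 𝓕) → (∀ t a, (M t a).PosSemidef) → (∀ t b y, 0 ≤ h t b y) →
    (∑ t, ∑ a, ∑ b, M t a ⊗ₖ ∑ y, (h t b y : ℂ) • piK (fun i => F t i (y i))) = 1 →
    σ.PosSemidef → σ.trace = 1 →
    c ≤ traceNorm (measState V 1 M
      (fun t b => ∑ y, (h t b y : ℂ) • piK (fun i => F t i (y i))) - idealState L σ)

end Vale.Agent.P372
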