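import Vale.Agent.P372.Meas.Defs
import Vale.Agent.P372.Bits.Main

/-! If the state splits along Bob's measurement, Eve knows the key. -/

open Matrix
open scoped Kronecker ComplexOrder MatrixOrder

namespace Vale.Agent.P372.Meas

/-- The operator of the first party left after the second party's effect `N`. -/
def condA {A B : Type*} [Fintype B] (N : Matrix B B ℂ) (σ : Matrix (A × B) (A × B) ℂ) :
    Matrix A A ℂ :=
  Matrix.of fun a a' => ∑ b, ∑ b', N b b' * σ (a, b') (a', b)

/-- The state is a sum of positive operators, for each of which every outcome of the measurement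
`F` leaves the first party in one state. -/
def Splits {A B I : Type*} [Fintype B] (ρ : Matrix (A × B) (A × B) ℂ) (F : I → Matrix B B ℂ) :
    Prop :=
  ∃ (J : ℕ) (σ : Fin J → Matrix (A × B) (A × B) ℂ) (α : Fin J → Matrix A A ℂ)
    (c : Fin J → I → ℝ), (∀ w, (σ w).PosSemidef) ∧ ∑ w, σ w = ρ ∧ (∀ w, (α w).PosSemidef) ∧
      (∀ w y, 0 ≤ c w y) ∧ ∀ w y, condA (F y) (σ w) = (c w y : ℂ) • α w

variable {A B : Type*} [Fintype A] [Fintype B]

lemma trace_condA (P : Matrix A A ℂ) (N : Matrix B B ℂ) (σ : Matrix (A × B) (A × B) ℂ) :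
    ((P ⊗ₖ N) * σ).trace = (P * condA N σ).trace := by
  simp only [trace, diag_apply, mul_apply, Fintype.sum_prod_type, kroneckerMap_apply, condA,
    of_apply, Finset.mul_sum]
  refine Finset.sum_congr rfl fun a _ => ?_
  rw [Finset.sum_comm]
  refine Finset.sum_congr rfl fun a' _ => Finset.sum_congr rfl fun b _ => ?_
  exact Finset.sum_congr rfl fun b' _ => by ring

omit [Fintype A] in
lemma condA_sum {K : Type*} [Fintype K] (h : K → ℂ) (N : K → Matrix B B ℂ)
    (σ : Matrix (A × B) (A × B) ℂ) :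
    condA (∑ k, h k • N k) σ = ∑ k, h k • condA (N k) σ := by
  ext a a'
  simp only [condA, of_apply, Matrix.sum_apply, Matrix.smul_apply, smul_eq_mul, Finset.sum_mul,
    Finset.mul_sum, mul_assoc]
  rw [Finset.sum_comm (γ := K)]
  exact Finset.sum_congr rfl fun b _ => Finset.sum_comm

omit [Fintype A] in
lemma condA_piP {I : Type*} [Fintype I] [DecidableEq I] (N : I → Matrix B B ℂ)
    (σ : I → Matrix (A × B) (A × B) ℂ) :
    condA (piK N) (piP σ) = piK fun i => condA (N i) (σ i) := by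
  ext f f'
  simp only [condA, piK, piP, of_apply, ← Finset.prod_mul_distrib, Fintype.prod_sum]

lemma piK_smul {I X Y : Type*} [Fintype I] (c : I → ℂ) (M : I → Matrix X Y ℂ) :
    piK (fun i => c i • M i) = (∏ i, c i) • piK M := by
  ext f g
  simp [piK, Finset.prod_mul_distrib]

omit [Fintype A] [Fintype B] in
lemma piP_sum {I J : Type*} [Fintype I] [DecidableEq I] [Fintype J]
    (σ : I → J → Matrix (A × B) (A × B) ℂ) :
    piP (fun i => ∑ j, σ i j) = ∑ w : I → J, piP (fun i => σ i (w i)) := by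
  ext p q
  simp only [piP, of_apply, Matrix.sum_apply, Fintype.prod_sum]

lemma piP_psd {I : Type*} [Fintype I] {σ : I → Matrix (A × B) (A × B) ℂ}
    (h : ∀ i, (σ i).PosSemidef) : (piP σ).PosSemidef :=
  (piK_psd h).submatrix _

/-- A party holding a purification can prepare any decomposition of the state. -/
lemma steer {X E W : Type*} [Fintype X] [DecidableEq X] [Fintype E] [DecidableEq E] [Fintype W]
    [DecidableEq W] (V : Matrix X E ℂ) (σ : W → Matrix X X ℂ) (hσ : ∀ w, (σ w).PosSemidef)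
    (hs : ∑ w, σ w = V * Vᴴ) :
    ∃ Q : W → Matrix E E ℂ, (∀ w, (Q w).PosSemidef) ∧ (1 - ∑ w, Q w).PosSemidef ∧
      ∀ (P : Matrix X X ℂ) (w : W), (Q w * (Vᴴ * P * V)).trace = (P * σ w).trace := by
  choose R hR using fun w => psd_eq_mul_conj (hσ w)
  let L : Matrix X (W × X) ℂ := Matrix.of fun p q => R q.1 p q.2
  have hL : L * Lᴴ = V * Vᴴ := by
    rw [← hs]
    ext p q
    simp [L, mul_apply, Fintype.sum_prod_type, Matrix.sum_apply, hR]
  obtain ⟨U, hU, hU1⟩ := exists_contraction V L hL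
  let P : W → Matrix (W × X) (W × X) ℂ := fun w => blkD fun w' => if w' = w then 1 else 0
  have hP : ∀ w, (P w).PosSemidef := fun w => blkD_psd fun w' =>
    psd_ite PosSemidef.one PosSemidef.zero
  have hP1 : ∑ w, P w = 1 := by
    simp only [P, blkD_sum]
    ext p q
    by_cases h : p.1 = q.1
    · simp [blkD, h, Matrix.sum_apply, one_apply, Prod.ext_iff, apply_ite (fun M : Matrix X X ℂ =>
        M p.2 q.2)]
    · simp [blkD, h, one_apply, Prod.ext_iff]
  refine ⟨fun w => U * P w * Uᴴ, fun w => (hP w).mul_mul_conjTranspose_same U, ?_, ?_⟩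
  · rwa [← Matrix.sum_mul, ← Matrix.mul_sum, hP1, Matrix.mul_one]
  · intro O w
    have e : L * P w * Lᴴ = σ w := by
      have e1 : L * P w = Matrix.of fun p q => if q.1 = w then R w p q.2 else 0 := by
        ext p ⟨v, q⟩
        simp only [L, P, blkD, mul_apply, of_apply, Fintype.sum_prod_type]
        rw [Finset.sum_eq_single v]
        · by_cases hv : v = w
          · subst hv; simp [one_apply]
          · simp [hv]
        · intro u _ hu; simp [hu]
        · simp
      rw [e1, hR w]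
      ext p q
      simp [L, mul_apply, Fintype.sum_prod_type, ite_mul]
    calc (U * P w * Uᴴ * (Vᴴ * O * V)).trace = (U * P w * Uᴴ * Vᴴ * (O * V)).trace := by
          simp only [Matrix.mul_assoc]
      _ = (O * V * (U * P w * Uᴴ * Vᴴ)).trace := trace_mul_comm _ _
      _ = (O * (L * P w * Lᴴ)).trace := by
          rw [hU, conjTranspose_mul]; simp only [Matrix.mul_assoc]
      _ = (O * σ w).trace := by rw [e]

/-- Eve's guess and Bob's disagreement. -/
lemma error_split {X W T Key : Type*} {E : Type*} [Fintype X] [DecidableEq X] [Fintype W]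
    [DecidableEq W] [Fintype T] [DecidableEq T] [Fintype Key] [DecidableEq Key] [Nonempty Key]
    [Fintype E] [DecidableEq E] (V : Matrix X E ℂ) (hV : (Vᴴ * V).trace = 1)
    (O : T → Key → Key → Matrix X X ℂ) (hO : ∀ t a b, (O t a b).PosSemidef)
    (hO1 : ∑ t, ∑ a, ∑ b, O t a b = 1)
    (σ : T → W → Matrix X X ℂ) (hσ : ∀ t w, (σ t w).PosSemidef)
    (hs : ∀ t, ∑ w, σ t w = V * Vᴴ)
    (μ ν : T → W → Key → ℝ) (hν : ∀ t w b, 0 ≤ ν t w b)
    (hfac : ∀ t w a b, (O t a b * σ t w).trace.re = μ t w a * ν t w b)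
    (τ : Matrix (T × E) (T × E) ℂ) (hτ : τ.PosSemidef) (hτ1 : τ.trace = 1)
    (cr : ℝ) (hcr0 : 0 ≤ cr) (c : ℂ) (hc' : c = (cr : ℂ)) :
    (1 - cr) / 2 ≤ traceNorm (joint (fun t a b => Vᴴ * O t a b * V) - perfect c τ) := by
  let ω : T → Key → Key → Matrix E E ℂ := fun t a b => Vᴴ * O t a b * V
  have hω : ∀ t a b, (ω t a b).PosSemidef := fun t a b =>
    (hO t a b).conjTranspose_mul_mul_same V
  choose Q hQ hQ1 hQe using fun t => steer V (σ t) (hσ t) (hs t)
  choose g hg using fun t w => Finset.exists_max_image Finset.univ (μ t w) Finset.univ_nonempty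
  let G : T → Key → Matrix E E ℂ := fun t a =>
    ∑ w ∈ Finset.univ.filter (fun w => g t w = a), Q t w
  have hG : ∀ t a, (G t a).PosSemidef := fun t a => posSemidef_sum _ fun w _ => hQ t w
  have hG1 : ∀ t, (1 - ∑ a, G t a).PosSemidef := fun t => by
    simp only [G, Finset.sum_fiberwise]
    exact hQ1 t
  have key1 := Bits.test_guess' ω hω G hG hG1 τ hτ hτ1 cr hcr0 c hc'
  have key2 := test_disagree ω hω τ hτ cr hcr0 c hc'
  have total : ∑ t, ∑ w, ∑ a, ∑ b, μ t w a * ν t w b = 1 := by
    simp only [← hfac]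
    simp only [← Complex.re_sum, ← trace_sum, ← Matrix.sum_mul]
    have e : ∀ t, ∑ w, (∑ a, ∑ b, O t a b) * σ t w = (∑ a, ∑ b, O t a b) * (V * Vᴴ) := fun t => by
      rw [← Matrix.mul_sum, hs]
    simp only [e]
    rw [← Matrix.sum_mul, hO1, Matrix.one_mul, trace_mul_comm, hV, Complex.one_re]
  have guess : ∑ t, ∑ a, ∑ b, (G t a * ω t a b).trace.re =
      ∑ t, ∑ w, ∑ b, μ t w (g t w) * ν t w b := by
    refine Finset.sum_congr rfl fun t _ => ?_
    rw [← Finset.sum_fiberwise Finset.univ (g t) (fun w => ∑ b, μ t w (g t w) * ν t w b)]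
    refine Finset.sum_congr rfl fun a _ => ?_
    rw [Finset.sum_comm]
    refine Finset.sum_congr rfl fun b _ => ?_
    simp only [G, ω, Matrix.sum_mul, trace_sum, Complex.re_sum]
    refine Finset.sum_congr rfl fun w hw => ?_
    rw [hQe, (Finset.mem_filter.1 hw).2, hfac]
  have dis : ∀ t a b, (ω t a b).trace.re = ∑ w, μ t w a * ν t w b := fun t a b => by
    simp only [← hfac, ← Complex.re_sum, ← trace_sum, ← Matrix.mul_sum, hs, ω]
    rw [trace_mul_cycle, trace_mul_comm]
  have main : 1 ≤ (∑ t, ∑ a, ∑ b, (G t a * ω t a b).trace.re) +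
      ∑ t, ∑ a, ∑ b, if a = b then 0 else (ω t a b).trace.re := by
    rw [guess, ← Finset.sum_add_distrib, ← total]
    refine Finset.sum_le_sum fun t _ => ?_
    have e : ∑ a, ∑ b, (if a = b then 0 else (ω t a b).trace.re) =
        ∑ w, ∑ a, ∑ b, if a = b then 0 else μ t w a * ν t w b := by
      simp only [dis]
      rw [eq_comm, Finset.sum_comm]
      refine Finset.sum_congr rfl fun a _ => ?_
      rw [Finset.sum_comm]
      refine Finset.sum_congr rfl fun b _ => ?_
      split_ifs <;> simp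
    rw [e, ← Finset.sum_add_distrib]
    refine Finset.sum_le_sum fun w _ => ?_
    rw [Finset.sum_comm, Finset.sum_comm (f := fun a b => if a = b then 0 else μ t w a * ν t w b),
      ← Finset.sum_add_distrib]
    refine Finset.sum_le_sum fun b _ => ?_
    rw [← Finset.add_sum_erase _ _ (Finset.mem_univ b),
      ← Finset.add_sum_erase _ (fun a => if a = b then 0 else μ t w a * ν t w b)
        (Finset.mem_univ b), if_pos rfl, zero_add]
    refine add_le_add (mul_le_mul_of_nonneg_right ((hg t w).2 b (Finset.mem_univ b)) (hν t w b)) ?_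
    exact Finset.sum_le_sum fun a ha => by rw [if_neg (Finset.ne_of_mem_erase ha)]
  linarith

theorem keyFreeMeas_of_splits {d r : ℕ} (𝓕 : Set (Fin r → Matrix (Fin d) (Fin d) ℂ))
    (ρ : Matrix (Fin d × Fin d) (Fin d × Fin d) ℂ) (htr : ρ.trace = 1)
    (hF : ∀ F ∈ 𝓕, ∀ y, (F y).PosSemidef) (hsplit : ∀ F ∈ 𝓕, Splits ρ F) :
    KeyFreeMeas 𝓕 (1 / 4) ρ := by
  intro m e T L V F M h τ hL hVρ hmem hM hh hcomp hτ hτ1
  classical
  choose J σ α c hσ hσs hα hc hcond using fun t i => hsplit (F t i) (hmem t i)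
  obtain ⟨J0, hJ0⟩ : ∃ J0 : ℕ, ∀ t i, J t i ≤ J0 :=
    ⟨∑ t, ∑ i, J t i, fun t i => le_trans
      (Finset.single_le_sum (f := fun i => J t i) (fun _ _ => Nat.zero_le _) (Finset.mem_univ i))
      (Finset.single_le_sum (f := fun t => ∑ i, J t i) (fun _ _ => Nat.zero_le _)
        (Finset.mem_univ t))⟩
  -- pad the decompositions to a common length
  let σ' : Fin T → Fin m → Fin J0 → Matrix (Fin d × Fin d) (Fin d × Fin d) ℂ := fun t i w =>
    if hw : (w : ℕ) < J t i then σ t i ⟨w, hw⟩ else 0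
  let α' : Fin T → Fin m → Fin J0 → Matrix (Fin d) (Fin d) ℂ := fun t i w =>
    if hw : (w : ℕ) < J t i then α t i ⟨w, hw⟩ else 0
  let c' : Fin T → Fin m → Fin J0 → Fin r → ℝ := fun t i w y =>
    if hw : (w : ℕ) < J t i then c t i ⟨w, hw⟩ y else 0
  have hσ' : ∀ t i w, (σ' t i w).PosSemidef := fun t i w => by
    simp only [σ']; split_ifs <;> first | exact hσ _ _ _ | exact PosSemidef.zero
  have hc' : ∀ t i w y, 0 ≤ c' t i w y := fun t i w y => by
    simp only [c']; split_ifs <;> first | exact hc _ _ _ _ | exact le_rfl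
  have hcond' : ∀ t i w y, condA (F t i y) (σ' t i w) = (c' t i w y : ℂ) • α' t i w := by
    intro t i w y
    simp only [σ', α', c']
    split_ifs
    · exact hcond _ _ _ _
    · ext a a'; simp [condA]
  have hsum : ∀ t i, ∑ w, σ' t i w = ρ := fun t i => by
    rw [← hσs t i]
    refine (Fintype.sum_of_injective (Fin.castLE (hJ0 t i)) (Fin.castLE_injective _) _ _ ?_ ?_).symm
    · intro w hw
      simp only [σ']
      rw [dif_neg fun hlt => hw ⟨⟨w, hlt⟩, Fin.ext rfl⟩]
    · intro w
      simp [σ', w.2]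
  let N : Fin T → (Fin L → Bool) → Matrix (Fin m → Fin d) (Fin m → Fin d) ℂ :=
    fun t b => ∑ y, (h t b y : ℂ) • piK (fun i => F t i (y i))
  have hN : ∀ t b, (N t b).PosSemidef := fun t b => posSemidef_sum _ fun y _ =>
    (piK_psd fun i => hF _ (hmem t i) _).smul (Complex.zero_le_real.mpr (hh t b y))
  have hV : (Vᴴ * V).trace = 1 := by
    rw [trace_mul_comm, hVρ, piP_trace]
    simp [htr]
  have hmain := error_split (W := Fin m → Fin J0) V hV (fun t a b => M t a ⊗ₖ N t b)
    (fun t a b => (hM t a).kronecker (hN t b)) hcomp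
    (fun t w => piP fun i => σ' t i (w i)) (fun t w => piP_psd fun i => hσ' t i _)
    (fun t => by rw [hVρ, ← piP_sum]; simp only [hsum])
    (fun t w a => (M t a * piK fun i => α' t i (w i)).trace.re)
    (fun t w b => ∑ y, h t b y * ∏ i, c' t i (w i) (y i))
    (fun t w b => Finset.sum_nonneg fun y _ =>
      mul_nonneg (hh t b y) (Finset.prod_nonneg fun i _ => hc' _ _ _ _))
    (fun t w a b => by
      rw [trace_condA, condA_sum]
      simp only [condA_piP, hcond', piK_smul, smul_smul, ← Finset.sum_smul, Matrix.mul_smul,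
        trace_smul, smul_eq_mul]
      rw [show (∑ y, (h t b y : ℂ) * ∏ i, ((c' t i (w i) (y i) : ℝ) : ℂ)) =
        ((∑ y, h t b y * ∏ i, c' t i (w i) (y i) : ℝ) : ℂ) by push_cast; rfl,
        Complex.re_ofReal_mul]
      ring)
    τ hτ hτ1 ((2 : ℝ) ^ L)⁻¹ (by positivity) ((2 : ℂ) ^ L)⁻¹ (by simp)
  have hcr : ((2 : ℝ) ^ L)⁻¹ ≤ 1 / 2 := by
    rw [one_div]
    exact inv_anti₀ two_pos (le_self_pow₀ one_le_two (by omega))
  refine le_trans (by linarith) (hmain.trans_eq ?_)
  simp only [measState, joint, perfect, idealState, Matrix.one_mul, N]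

end Vale.Agent.P372.Meas
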