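import Vale.Agent.P372.Meas.Basis
import Vale.Agent.P372.Werner

/-! Werner states split along every measurement with few outcomes. -/

open Matrix
open scoped Kronecker ComplexOrder MatrixOrder InnerProductSpace

namespace Vale.Agent.P372.Meas

variable {d : ℕ}

/-- Real coordinates of an operator, orthonormal on the Hermitian ones. -/
noncomputable def coord (M : Matrix (Fin d) (Fin d) ℂ) : EuclideanSpace ℝ (Fin d × Fin d) :=
  WithLp.toLp 2 fun p => (M p.1 p.2).re + (M p.1 p.2).im

/-- The Hermitian operator with given coordinates. -/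
noncomputable def uncoord (v : EuclideanSpace ℝ (Fin d × Fin d)) : Matrix (Fin d) (Fin d) ℂ :=
  Matrix.of fun i j => ⟨(v (i, j) + v (j, i)) / 2, (v (i, j) - v (j, i)) / 2⟩

lemma uncoord_herm (v : EuclideanSpace ℝ (Fin d × Fin d)) : (uncoord v).IsHermitian := by
  ext i j
  simp only [conjTranspose_apply, uncoord, of_apply, Complex.ext_iff, Complex.star_def,
    Complex.conj_re, Complex.conj_im]
  constructor <;> ring

lemma coord_uncoord (v : EuclideanSpace ℝ (Fin d × Fin d)) : coord (uncoord v) = v := by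
  ext p
  simp only [coord, uncoord, of_apply]
  ring

lemma uncoord_coord {M : Matrix (Fin d) (Fin d) ℂ} (h : M.IsHermitian) :
    uncoord (coord M) = M := by
  ext i j
  have h1 := congrArg Complex.re (h.apply i j)
  have h2 := congrArg Complex.im (h.apply i j)
  simp only [Complex.star_def, Complex.conj_re, Complex.conj_im] at h1 h2
  simp only [uncoord, coord, of_apply, Complex.ext_iff]
  constructor <;> linarith

lemma uncoord_sum {K : Type*} [Fintype K] (a : K → ℝ) (v : K → EuclideanSpace ℝ (Fin d × Fin d)) :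
    uncoord (∑ k, a k • v k) = ∑ k, (a k : ℂ) • uncoord (v k) := by
  ext i j
  simp only [uncoord, of_apply, Matrix.sum_apply, Matrix.smul_apply, Complex.ext_iff,
    Complex.re_sum, Complex.im_sum, smul_eq_mul, Complex.re_ofReal_mul, Complex.im_ofReal_mul,
    WithLp.ofLp_sum, WithLp.ofLp_smul, Finset.sum_apply, Pi.smul_apply]
  constructor
  · rw [← Finset.sum_add_distrib, Finset.sum_div]
    exact Finset.sum_congr rfl fun k _ => by ring
  · rw [← Finset.sum_sub_distrib, Finset.sum_div]
    exact Finset.sum_congr rfl fun k _ => by ring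

lemma inner_coord {M N : Matrix (Fin d) (Fin d) ℂ} (hM : M.IsHermitian) (hN : N.IsHermitian) :
    ⟪coord M, coord N⟫_ℝ = (M * N).trace.re := by
  have swap : ∑ p : Fin d × Fin d, (M p.1 p.2).re * (N p.1 p.2).im = 0 := by
    have e : ∑ p : Fin d × Fin d, (M p.1 p.2).re * (N p.1 p.2).im =
        ∑ p : Fin d × Fin d, -((M p.1 p.2).re * (N p.1 p.2).im) := by
      refine Fintype.sum_equiv (Equiv.prodComm _ _) _ _ fun p => ?_
      have h1 := congrArg Complex.re (hM.apply p.2 p.1)
      have h2 := congrArg Complex.im (hN.apply p.2 p.1)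
      simp only [Complex.star_def, Complex.conj_re, Complex.conj_im] at h1 h2
      simp [← h1, ← h2]
    simp only [Finset.sum_neg_distrib] at e
    linarith
  have swap' : ∑ p : Fin d × Fin d, (M p.1 p.2).im * (N p.1 p.2).re = 0 := by
    have e : ∑ p : Fin d × Fin d, (M p.1 p.2).im * (N p.1 p.2).re =
        ∑ p : Fin d × Fin d, -((M p.1 p.2).im * (N p.1 p.2).re) := by
      refine Fintype.sum_equiv (Equiv.prodComm _ _) _ _ fun p => ?_
      have h1 := congrArg Complex.im (hM.apply p.2 p.1)
      have h2 := congrArg Complex.re (hN.apply p.2 p.1)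
      simp only [Complex.star_def, Complex.conj_re, Complex.conj_im] at h1 h2
      simp [← h1, ← h2]
    simp only [Finset.sum_neg_distrib] at e
    linarith
  rw [PiLp.inner_apply]
  simp only [coord, RCLike.inner_apply, conj_trivial, trace, diag_apply, mul_apply, Complex.re_sum,
    Complex.mul_re]
  rw [← Fintype.sum_prod_type (f := fun p : Fin d × Fin d =>
    (M p.1 p.2).re * (N p.2 p.1).re - (M p.1 p.2).im * (N p.2 p.1).im)]
  have e : ∀ p : Fin d × Fin d,
      (M p.1 p.2).re * (N p.2 p.1).re - (M p.1 p.2).im * (N p.2 p.1).im =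
        (M p.1 p.2).re * (N p.1 p.2).re + (M p.1 p.2).im * (N p.1 p.2).im := fun p => by
    have h1 := congrArg Complex.re (hN.apply p.2 p.1)
    have h2 := congrArg Complex.im (hN.apply p.2 p.1)
    simp only [Complex.star_def, Complex.conj_re, Complex.conj_im] at h1 h2
    rw [← h1, ← h2]
    ring
  simp only [e]
  rw [← add_zero (∑ p : Fin d × Fin d,
    ((M p.1 p.2).re * (N p.1 p.2).re + (M p.1 p.2).im * (N p.1 p.2).im))]
  nth_rewrite 1 [← add_zero (0 : ℝ)]
  nth_rewrite 1 [← swap]
  rw [← swap', ← Finset.sum_add_distrib, ← Finset.sum_add_distrib]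
  exact Finset.sum_congr rfl fun p _ => by ring

/-- A Hermitian operator of unit Hilbert-Schmidt norm is at most the identity. -/
lemma unit_le_one {H : Matrix (Fin d) (Fin d) ℂ} (hH : H.IsHermitian)
    (h1 : ∑ p : Fin d × Fin d, ‖H p.1 p.2‖ ^ 2 ≤ 1) : (1 + H).PosSemidef := by
  refine PosSemidef.of_dotProduct_mulVec_nonneg (Matrix.isHermitian_one.add hH) fun x => ?_
  have hherm : (star x ⬝ᵥ H *ᵥ x).im = 0 := hH.im_star_dotProduct_mulVec_self x
  have hb : ‖star x ⬝ᵥ H *ᵥ x‖ ≤ ∑ i, ‖x i‖ ^ 2 := by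
    have e : star x ⬝ᵥ H *ᵥ x = ∑ p : Fin d × Fin d, star (x p.1) * (H p.1 p.2 * x p.2) := by
      simp [dotProduct, mulVec, Finset.mul_sum, Fintype.sum_prod_type]
    rw [e]
    refine (norm_sum_le _ _).trans ?_
    simp only [norm_mul, norm_star]
    have cs := Finset.sum_mul_sq_le_sq_mul_sq Finset.univ (fun p : Fin d × Fin d => ‖H p.1 p.2‖)
      (fun p => ‖x p.1‖ * ‖x p.2‖)
    have e2 : ∑ p : Fin d × Fin d, (‖x p.1‖ * ‖x p.2‖) ^ 2 = (∑ i, ‖x i‖ ^ 2) ^ 2 := by
      rw [sq (∑ i, ‖x i‖ ^ 2), Finset.sum_mul_sum, Fintype.sum_prod_type]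
      exact Finset.sum_congr rfl fun i _ => Finset.sum_congr rfl fun j _ => by ring
    have e3 : ∑ p : Fin d × Fin d, ‖x p.1‖ * (‖H p.1 p.2‖ * ‖x p.2‖) =
        ∑ p : Fin d × Fin d, ‖H p.1 p.2‖ * (‖x p.1‖ * ‖x p.2‖) :=
      Finset.sum_congr rfl fun p _ => by ring
    rw [e3]
    rw [e2] at cs
    refine abs_le_of_sq_le_sq' ?_ (Finset.sum_nonneg fun i _ => by positivity) |>.2
    exact cs.trans (mul_le_of_le_one_left (sq_nonneg _) h1)
  have hx : star x ⬝ᵥ x = ((∑ i, ‖x i‖ ^ 2 : ℝ) : ℂ) := by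
    simp [dotProduct, ← Complex.mul_conj']
    exact Finset.sum_congr rfl fun i _ => mul_comm _ _
  rw [Matrix.add_mulVec, Matrix.one_mulVec, dotProduct_add, hx, Complex.nonneg_iff]
  refine ⟨?_, by rw [Complex.add_im, hherm, Complex.ofReal_im, add_zero]⟩
  rw [Complex.add_re, Complex.ofReal_re]
  linarith [(abs_le.1 ((Complex.abs_re_le_norm _).trans hb)).1]

/-- An orthonormal system of at most `r` Hermitian operators reproducing `r` given ones. -/
lemma exists_frame {r : ℕ} (F : Fin r → Matrix (Fin d) (Fin d) ℂ)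
    (hF : ∀ y, (F y).IsHermitian) :
    ∃ (k : ℕ) (G : Fin k → Matrix (Fin d) (Fin d) ℂ), k ≤ r ∧
      (∀ l, (1 + G l).PosSemidef ∧ (1 - G l).PosSemidef) ∧
      ∀ y, ∑ l, ((F y) * G l).trace • G l = F y := by
  let W : Submodule ℝ (EuclideanSpace ℝ (Fin d × Fin d)) :=
    Submodule.span ℝ (Set.range fun y => coord (F y))
  let b := stdOrthonormalBasis ℝ W
  let G : Fin (Module.finrank ℝ W) → Matrix (Fin d) (Fin d) ℂ := fun l => uncoord (b l)
  have hG : ∀ l, (G l).IsHermitian := fun l => uncoord_herm _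
  refine ⟨Module.finrank ℝ W, G, ?_, fun l => ?_, fun y => ?_⟩
  · exact (finrank_range_le_card (R := ℝ) fun y => coord (F y)).trans_eq (Fintype.card_fin r)
  · have hn : ∑ p : Fin d × Fin d, ‖G l p.1 p.2‖ ^ 2 = 1 := by
      have h1 : ⟪coord (G l), coord (G l)⟫_ℝ = 1 := by
        simp only [G, coord_uncoord, ← Submodule.coe_inner, real_inner_self_eq_norm_sq,
          b.orthonormal.1 l, one_pow]
      rw [inner_coord (hG l) (hG l)] at h1
      rw [← h1]
      simp only [trace, diag_apply, mul_apply, Complex.re_sum, Fintype.sum_prod_type]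
      refine Finset.sum_congr rfl fun i _ => Finset.sum_congr rfl fun j _ => ?_
      have hconj := (hG l).apply j i
      rw [← hconj, Complex.star_def, Complex.mul_conj, Complex.ofReal_re, Complex.normSq_eq_norm_sq]
    refine ⟨unit_le_one (hG l) hn.le, ?_⟩
    rw [sub_eq_add_neg]
    exact unit_le_one (hG l).neg (by simpa using hn.le)
  · have hv : coord (F y) ∈ W := Submodule.subset_span ⟨y, rfl⟩
    have h2 := congrArg Subtype.val (b.sum_repr' ⟨coord (F y), hv⟩)
    simp only [Submodule.coe_sum, Submodule.coe_smul, Submodule.coe_inner] at h2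
    conv_rhs => rw [← uncoord_coord (hF y), ← h2, uncoord_sum]
    refine Finset.sum_congr rfl fun l _ => ?_
    congr 1
    have e : ((b l : W) : EuclideanSpace ℝ (Fin d × Fin d)) = coord (G l) := (coord_uncoord _).symm
    rw [e, real_inner_comm, inner_coord (hF y) (hG l)]
    apply Complex.ext
    · simp
    · have : (F y * G l).trace = star (F y * G l).trace := by
        rw [← trace_conjTranspose, conjTranspose_mul, (hG l).eq, (hF y).eq, trace_mul_comm]
      have h3 := congrArg Complex.im this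
      simp only [Complex.star_def, Complex.conj_im] at h3
      simp only [Complex.ofReal_im]
      linarith

lemma condA_flip (N : Matrix (Fin d) (Fin d) ℂ) : condA N (flipM d) = N := by
  ext a a'
  simp [condA, flipM, Prod.ext_iff, ite_and]

theorem splits_povm {r : ℕ} {x : ℝ} (hd : 2 ≤ d) (hx0 : 0 ≤ x) (hx1 : x * (2 * r + 1) ≤ 1)
    (hx : x < 1) (F : Fin r → Matrix (Fin d) (Fin d) ℂ) (hF : ∀ y, (F y).PosSemidef) :
    Splits (werner d x) F := by
  obtain ⟨k, G, hk, hG, hrep⟩ := exists_frame F fun y => (hF y).isHermitian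
  obtain ⟨c, hc⟩ : ∃ c : ℝ, c = ((d : ℝ) * d - x * d)⁻¹ := ⟨_, rfl⟩
  have hc0 : 0 ≤ c := hc ▸ inv_nonneg.mpr (den_pos hd hx).le
  obtain ⟨u, hu⟩ : ∃ u : ℝ, u = 1 - x * (2 * k + 1) := ⟨_, rfl⟩
  have hu0 : 0 ≤ u := by
    have : (k : ℝ) ≤ r := by exact_mod_cast hk
    rw [hu]; nlinarith
  have hherm : ∀ l, (G l).IsHermitian := fun l => by
    simpa using (hG l).1.isHermitian.sub Matrix.isHermitian_one
  have hz : ∀ (y : Fin r) (Y : Matrix (Fin d) (Fin d) ℂ), Y.PosSemidef →
      (F y * Y).trace = ((F y * Y).trace.re : ℂ) := fun y Y hY => by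
    apply Complex.ext
    · simp
    · have : (F y * Y).trace = star (F y * Y).trace := by
        rw [← trace_conjTranspose, conjTranspose_mul, hY.isHermitian.eq, (hF y).isHermitian.eq,
          trace_mul_comm]
      have h3 := congrArg Complex.im this
      simp only [Complex.star_def, Complex.conj_im] at h3
      simp only [Complex.ofReal_im]
      linarith
  let sgn : Bool → Fin k → Matrix (Fin d) (Fin d) ℂ := fun b l => if b then 1 + G l else 1 - G l
  have hsgn : ∀ b l, (sgn b l).PosSemidef := fun b l => by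
    cases b
    exacts [(hG l).2, (hG l).1]
  let mix : Matrix (Fin d × Fin d) (Fin d × Fin d) ℂ :=
    (1 - flipM d) + ∑ l, ((1 / 2 : ℝ) : ℂ) • ∑ b, sgn b l ⊗ₖ sgn b l
  have hmix : mix.PosSemidef := one_sub_flip_psd.add (posSemidef_sum _ fun l _ =>
    (posSemidef_sum _ fun b _ => (hsgn b l).kronecker (hsgn b l)).smul
      (Complex.zero_le_real.mpr (by norm_num)))
  have hpm : ∀ l, ((1 / 2 : ℝ) : ℂ) • ∑ b, sgn b l ⊗ₖ sgn b l =
      1 + G l ⊗ₖ G l := fun l => by
    ext p q
    simp [sgn, one_apply, Prod.ext_iff]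
    split_ifs <;> simp_all <;> ring
  refine splits_of (W := Option (Option (Fin k × Bool)))
    (fun w => w.elim (((c * x : ℝ) : ℂ) • mix) fun w' => w'.elim (((c * u : ℝ) : ℂ) • 1)
      fun lb => (((c * x / 2 : ℝ)) : ℂ) • (sgn lb.2 lb.1 ⊗ₖ sgn (!lb.2) lb.1))
    (fun w => w.elim 1 fun w' => w'.elim 1 fun lb => sgn lb.2 lb.1)
    (fun w y => w.elim (c * x * (1 + k) * (F y).trace.re) fun w' =>
      w'.elim (c * u * (F y).trace.re) fun lb =>
        c * x / 2 * (F y * sgn (!lb.2) lb.1).trace.re) ?_ ?_ ?_ ?_ ?_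
  · rintro (_ | _ | ⟨l, b⟩)
    · exact hmix.smul (Complex.zero_le_real.mpr (by positivity))
    · exact PosSemidef.one.smul (Complex.zero_le_real.mpr (by positivity))
    · exact ((hsgn b l).kronecker (hsgn _ l)).smul (Complex.zero_le_real.mpr (by positivity))
  · simp only [mix, hpm]
    simp only [Fintype.sum_option, Option.elim_none, Option.elim_some, Fintype.sum_prod_type,
      Fintype.sum_bool]
    ext p q
    simp only [werner, ← hc, Matrix.add_apply, Matrix.smul_apply, Matrix.sub_apply,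
      Matrix.sum_apply, smul_eq_mul, Complex.real_smul, Finset.sum_add_distrib, Finset.sum_const,
      Finset.card_univ, Fintype.card_fin, nsmul_eq_mul, kroneckerMap_apply, sgn, Bool.not_true,
      Bool.not_false, if_true, Bool.false_eq_true, if_false, hu]
    push_cast
    simp only [← Finset.mul_sum, ← mul_add, ← Finset.sum_add_distrib]
    have e : ∀ l, ((1 : Matrix (Fin d) (Fin d) ℂ) p.1 q.1 + G l p.1 q.1) *
          ((1 : Matrix (Fin d) (Fin d) ℂ) p.2 q.2 - G l p.2 q.2) +
        ((1 : Matrix (Fin d) (Fin d) ℂ) p.1 q.1 - G l p.1 q.1) *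
          ((1 : Matrix (Fin d) (Fin d) ℂ) p.2 q.2 + G l p.2 q.2) =
        2 * (1 : Matrix (Fin d × Fin d) (Fin d × Fin d) ℂ) p q -
          2 * (G l p.1 q.1 * G l p.2 q.2) := fun l => by
      rw [show (1 : Matrix (Fin d × Fin d) (Fin d × Fin d) ℂ) p q =
        (1 : Matrix (Fin d) (Fin d) ℂ) p.1 q.1 * (1 : Matrix (Fin d) (Fin d) ℂ) p.2 q.2 by
        rw [← kroneckerMap_apply (f := (· * ·)), one_kronecker_one]]
      ring
    simp only [e, Finset.sum_sub_distrib, ← Finset.mul_sum, Finset.sum_const, Finset.card_univ,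
      Fintype.card_fin, nsmul_eq_mul]
    rw [show ((k : Matrix (Fin d × Fin d) (Fin d × Fin d) ℂ) *
        (1 : Matrix (Fin d × Fin d) (Fin d × Fin d) ℂ)) p q =
      (k : ℂ) * (1 : Matrix (Fin d × Fin d) (Fin d × Fin d) ℂ) p q by
      rw [← nsmul_eq_mul, Matrix.smul_apply, nsmul_eq_mul]]
    ring
  · rintro (_ | _ | ⟨l, b⟩)
    exacts [PosSemidef.one, PosSemidef.one, hsgn b l]
  · have ht : ∀ y, 0 ≤ (F y).trace.re := fun y =>
      (Complex.nonneg_iff.mp (hF y).trace_nonneg).1
    rintro (_ | _ | ⟨l, b⟩) y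
    · exact mul_nonneg (by positivity) (ht y)
    · exact mul_nonneg (by positivity) (ht y)
    · exact mul_nonneg (by positivity) (psd_trace_mul_nonneg (hF y) (hsgn _ l))
  · have one_cond : ∀ y, condA (F y) (1 : Matrix (Fin d × Fin d) (Fin d × Fin d) ℂ) =
        ((F y).trace.re : ℂ) • 1 := fun y => by
      rw [← one_kronecker_one (α := ℂ) (m := Fin d) (n := Fin d), condA_kron, Matrix.mul_one]
      have := hz y 1 PosSemidef.one
      rw [Matrix.mul_one] at this
      rw [← this]
    have smul_cond : ∀ y (s : ℂ) (σ : Matrix (Fin d × Fin d) (Fin d × Fin d) ℂ),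
        condA (F y) (s • σ) = s • condA (F y) σ := fun y s σ => by
      ext a a'
      simp only [condA, of_apply, Matrix.smul_apply, smul_eq_mul, Finset.mul_sum]
      exact Finset.sum_congr rfl fun _ _ => Finset.sum_congr rfl fun _ _ => by ring
    have add_cond : ∀ y (σ τ : Matrix (Fin d × Fin d) (Fin d × Fin d) ℂ),
        condA (F y) (σ + τ) = condA (F y) σ + condA (F y) τ := fun y σ τ => by
      ext a a'
      simp [condA, mul_add, Finset.sum_add_distrib]
    rintro (_ | _ | ⟨l, b⟩) y
    · simp only [Option.elim_none, mix, hpm, smul_cond, add_cond, condA_sub, condA_sum',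
        Finset.sum_add_distrib, Finset.sum_const, Finset.card_univ, Fintype.card_fin, one_cond,
        condA_flip, condA_kron, hrep, ← Nat.cast_smul_eq_nsmul ℂ]
      push_cast
      module
    · simp only [Option.elim_none, Option.elim_some, smul_cond, one_cond, smul_smul]
      push_cast
      rfl
    · simp only [Option.elim_some, smul_cond, condA_kron, smul_smul]
      rw [hz y _ (hsgn _ l)]
      push_cast
      simp

end Vale.Agent.P372.Meas
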